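import Vale.Agent.P277W73.Exp

/-!
# P277W, row EXD: the relative canonical divisor exists and is unique
-/

set_option linter.all false

open scoped Topology
open Vale.Agent.P277 hiding Amin IsFlipR
open Vale.Agent.P272.K Vale.Agent.P285.H281.FD Vale.Agent.P277Z Vale.Agent.P277Z.St Set Filter
open Vale.Agent.P277Z.St.Pr Vale.Agent.P277Z.Val Vale.Agent.P277W Vale.Agent.P277.HD
open Vale.Agent.P277.PH (HolF at_chartAt ev_symm)

noncomputable section

namespace Vale.Agent.P277W73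

/-- the frames of the pluricanonical bundle are monomials on a log resolution -/
theorem monK {V : Lg} {X : CSp} {p : V.W → X.pt} {m : ℕ} {L : Bd X.pt} {η} (hX : IsNormal 4 X)
    (hc : IsCan X m L η) (ct : Continuous p)
    (hh : ∀ y g, X.Hol g (p y) → HolF 4 (fun y => g (p y)) y)
    (ch : ∀ y ∉ V.E, ∀ e : Chart 4 V.W, At e y → IsCh X (fun w => p (e.symm w)) (e y)) :
    ∃ κ, ∀ c : L.ι × atlas (Cm 4) V.W, ∀ y ∈ c.2.1.source ∩ p ⁻¹' L.U c.1,
      Mon V κ (fun x => η c.1 (fun w => p (c.2.1.symm w)) (c.2.1 x)) y := by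
  have un : ∀ y ∉ V.E, ∀ i (e : Chart 4 V.W), At e y → p y ∈ L.U i →
      HolF 4 (fun x => η i (fun w => p (e.symm w)) (e x)) y ∧
        η i (fun w => p (e.symm w)) (e y) ≠ 0 := fun y hy i e he hi => by
    have := hc.an i _ _ (ch y hy e he) (by simpa only [e.left_inv he.2] using hi)
    exact ⟨(crd_chart he).holF this.2, this.1⟩
  have chg : ∀ y ∉ V.E, ∀ (i j : L.ι) (e e' : Chart 4 V.W), At e y → At e' y → p y ∈ L.U i →
      p y ∈ L.U j → η j (fun w => p (e'.symm w)) (e' y) = L.g i j (p y) *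
      η i (fun w => p (e.symm w)) (e y) * (fderiv ℂ (fun w => e (e'.symm w)) (e' y)).det ^ m := by
    intro y hy i j e e' he he' hi hj
    have h1 := hc.comp j (fun w => p (e.symm w)) (fun w => p (e'.symm w)) (fun w => e (e'.symm w))
      (e' y) (trans_analyticAt he' he)
    have h2 := hc.change i j _ _ (ch y hy e he)
    simp only [e'.left_inv he'.2, e.left_inv he.2] at h1 h2
    rw [h1 (ch y hy e he) hj (ev_symm he'.2 (P := fun x => p x = p (e.symm (e x)))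
      ((e.eventually_left_inverse he.2).mono fun _ h => congrArg p h.symm)), h2 hi hj]
  refine exists_glob' _ _ (fun c => c.2.1.open_source.inter ((hc.lb.isOpen _).preimage ct))
    (fun y => (hc.lb.cover (p y)).elim fun i hi =>
      ⟨(i, ⟨_, (at_chartAt y).1⟩), (at_chartAt y).2, hi⟩) ?_ ?_
  · rintro ⟨i, e, he⟩ y ⟨hy, hi⟩
    obtain ⟨N, k, U, Ω, f, φ, hU, M⟩ := X.model (p y)
    have h1 : ∀ᶠ x in 𝓝 y, At e x ∧ p x ∈ U ∩ L.U i :=
      (At.near ⟨he, hy⟩).and (ct.continuousAt.eventually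
        ((M.isOpen.inter (hc.lb.isOpen i)).mem_nhds ⟨hU, hi⟩))
    obtain ⟨σ, hσ⟩ : ∃ σ : Fin 4 → Option (Fin N), ∃ᶠ x in 𝓝 y, x ∉ V.E ∧
        (fderiv ℂ (fun w => Glc.S44.sel σ (φ (p (e.symm w)))) (e x)).det ≠ 0 := by
      by_contra k
      obtain ⟨x, a, b, c⟩ := ((V.freqE y).and_eventually (h1.and (eventually_all.2 fun σ =>
        not_frequently.1 (not_exists.1 k σ)))).exists
      obtain ⟨σ, hσ⟩ := (ch x a e b.1).selO M (by simpa only [e.left_inv b.1.2] using b.2.1)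
      exact c σ ⟨a, hσ⟩
    have hG : ∀ x ∈ U ∩ L.U i, ∀ a, X.Hol (fun x => Glc.S44.sel σ (φ x) a) x := fun x hx a =>
      (M.hol x hx.1 _).2 ⟨fun w => Glc.S44.sel σ w a,
        analyticAt_pi_iff.1 ((Glc.S44.sel σ).analyticAt _) a, .rfl⟩
    obtain ⟨J, j1, j2⟩ := exists_J hX hc (M.isOpen.inter (hc.lb.isOpen i)) hG inter_subset_right
    have h2 : ∀ᶠ x in 𝓝 y, x ∉ V.E → η i (fun w => p (e.symm w)) (e x) * J (p x) =
        (fderiv ℂ (fun w => Glc.S44.sel σ (φ (p (e.symm w)))) (e x)).det ^ m := by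
      filter_upwards [h1] with x a b
      have := j2 _ _ (ch x b e a.1)
      simp only [e.left_inv a.1.2] at this
      exact this a.2
    refine exists_mon (a := fun x =>
      (fderiv ℂ (fun w => Glc.S44.sel σ (φ (p (e.symm w)))) (e x)).det ^ m)
      ((crd_chart ⟨he, hy⟩).holF ((an_jac (AnalyticAt.pi fun a =>
        hh y _ (hG _ ⟨hU, hi⟩ a) e ⟨he, hy⟩)).pow m)) (hh y J (j1 _ ⟨hU, hi⟩))
      (fun k => ?_) ?_
    · obtain ⟨x, a, b, c⟩ := (hσ.and_eventually (h2.and k)).exists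
      exact pow_ne_zero m a.2 (by rw [← b a.1, c, mul_zero])
    · filter_upwards [h1, h2] with x a b c
      exact ⟨(un x c i e a.1 a.2.2).1, (un x c i e a.1 a.2.2).2, b c⟩
  · rintro ⟨i, e, he⟩ ⟨j, e', he'⟩ y ⟨hy, hi⟩ ⟨hy', hj⟩
    have h1 := (crd_chart ⟨he', hy'⟩).chg (crd_chart ⟨he, hy⟩)
    refine ⟨fun x => L.g i j (p x) * (fderiv ℂ (fun w => e (e'.symm w)) (e' x)).det ^ m,
      (hh y _ (hc.lb.holo i j _ hi hj)).mul
        ((crd_chart ⟨he', hy'⟩).holF ((an_jac h1.1).pow m)),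
      mul_ne_zero (hc.lb.ne_zero i j _ hi hj) (pow_ne_zero m h1.2), ?_⟩
    filter_upwards [At.near ⟨he, hy⟩, At.near ⟨he', hy'⟩, ct.continuousAt.eventually
      (((hc.lb.isOpen i).inter (hc.lb.isOpen j)).mem_nhds ⟨hi, hj⟩)] with x a b c d
    rw [chg x d i j e e' a b c.1 c.2]
    ring

variable {W : CSp} {g g' : Cm 4 → W.pt} {z z' : Cm 4} {ζ ζ' : Cm 4 → ℂ}

/-- the order of a frame along a hypersurface does not depend on the chart -/
theorem ord_can {X : CSp} {q : W.pt → X.pt} {m : ℕ} {L : Bd X.pt} {η} (hc : IsCan X m L η)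
    {i : L.ι} {Q : Set W.pt} {k : ℤ} (h : IsCh W g z) (h' : IsCh W g' z')
    (e : g' z' = g z) (k0 : Eqn ζ z) (k1 : Eqn ζ' z') (k2 : ∀ᶠ w in 𝓝 z, g w ∈ Q ↔ ζ w = 0)
    (k3 : ∀ᶠ w in 𝓝 z', g' w ∈ Q ↔ ζ' w = 0)
    (k4 : ∀ᶠ w in 𝓝 z', ζ' w ≠ 0 → IsCh X (fun w => q (g' w)) w ∧ q (g' w) ∈ L.U i)
    (ho : Ord (η i fun w => q (g' w)) ζ' z' k) : Ord (η i fun w => q (g w)) ζ z k := by
  obtain ⟨φ, p1, p2, p3, p4⟩ := h'.dataO
  obtain ⟨σ, b1, b2, b3⟩ := h.trans h' e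
  obtain ⟨ψ, -, -, q3, -⟩ := h.dataO
  rw [e] at p1 p2 p4
  have a1 : AnalyticAt ℂ (fun w => φ (g w)) z := AnalyticAt.pi fun a => h.1.analyticAt (p1 a)
  have a2 : φ (g z) = z' := e ▸ p3.self_of_nhds
  have a3 : ∀ᶠ w in 𝓝 z, g w = g' (φ (g w)) := (h.1.1.eventually p4).mono fun _ => Eq.symm
  have t1 : Tendsto (fun w => φ (g w)) (𝓝 z) (𝓝 z') := p2.comp h.1.1
  have nz : (fderiv ℂ (fun w => φ (g w)) z).det ≠ 0 := fun h0 => by
    have e1 : (fun w => σ (φ (g w))) =ᶠ[𝓝 z] id := by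
      have t2 : Tendsto (fun w => σ (φ (g w))) (𝓝 z) (𝓝 z) :=
        (b2 ▸ b1.continuousAt.tendsto : Tendsto σ (𝓝 z') (𝓝 z)).comp t1
      filter_upwards [q3, t2.eventually q3, t1.eventually b3, a3] with w c1 c2 c3 c4
      exact c2.symm.trans ((congrArg ψ (c3.symm.trans c4.symm)).trans c1)
    have := Val.det_comp (φ := σ) (θ := fun w => φ (g w)) (w := z)
      (a2.symm ▸ b1.differentiableAt) a1.differentiableAt
    rw [e1.fderiv_eq, h0, mul_zero, fderiv_id, H19.det_id] at this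
    exact one_ne_zero this
  obtain ⟨u, u1, u2, u3⟩ := ord_chart (Φ := fun x => η i (fun w => q (g' w)) (φ x)) (k := k)
    h h' e k0 k1 k2 k3 (by
      obtain ⟨u, u1, u2, u3⟩ := ho
      exact ⟨u, u1, u2, by
        filter_upwards [u3, p3] with w c1 c2
        rwa [c2]⟩)
  refine ⟨fun w => u w * (fderiv ℂ (fun w => φ (g w)) w).det ^ m, u1.mul ((an_jac a1).pow m),
    mul_ne_zero u2 (pow_ne_zero m nz), ?_⟩
  filter_upwards [u3, a1.eventually_analyticAt, a3.eventually_nhds, t1.eventually k4,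
    t1.eventually k3, k2] with w c1 c2 c3 c4 c5 c6 c7
  have c8 := c4 fun c => c7 (c6.1 (c3.self_of_nhds ▸ c5.2 c))
  rw [hc.comp i (fun w => q (g' w)) (fun w => q (g w)) (fun w => φ (g w)) w c2 c8.1 c8.2
    (c3.mono fun _ c => congrArg q c), c1 c7]
  ring

/-- an order which holds outside of a small set is the order -/
theorem fin_of (h0 : StPrime) (hW : IsNormal 4 W) {ι : Type} {U : ι → Set W.pt}
    (hU : ∀ i, IsOpen (U i)) (hc : ∀ x, ∃ i, x ∈ U i) {F : ι → (Cm 4 → W.pt) → Cm 4 → ℂ}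
    (E : PD W) {k : ℤ} {S : Set W.pt} (hS : DimLe W 2 S)
    (loc : ∀ i g z ζ, IsCh W g z → g z ∈ U i → Eqn ζ z →
      (∀ᶠ w in 𝓝 z, g w ∈ E.1 ↔ ζ w = 0) → g z ∉ S → Ord (F i g) ζ z k) (k' : ℤ) :
    OrdE W E.1 U F k' ↔ k' = k := by
  constructor
  · rintro ⟨i, g, z, ζ, a1, a2, a3, a4, a5⟩
    obtain ⟨w, ⟨w1, w2⟩, w3, w4, w5, w6⟩ := ((hyp W g z ζ _ a1 a3 hS).and_eventually
      (a1.eventually.and (a4.eventually_nhds.and ((oun _ _ _ _ a3 a5).2.and
        (a1.1.1.eventually ((hU i).mem_nhds a2)))))).exists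
    exact (oun _ _ _ _ (w5 w1).1 (w5 w1).2).1 _ (loc i g w ζ w3 w6 (w5 w1).1 w4 w2)
  · rintro rfl
    obtain ⟨S', hS'⟩ := h0 W Unit (fun _ => E.1) hW (fun _ => E.2) fun _ _ _ => rfl
    obtain ⟨x, hx, hn⟩ := not_subset.1 fun h => E.2.dim' ((hS.union hS'.dim).mono h)
    obtain ⟨g, z, ζ, a1, rfl, a3, a4⟩ := (hS'.hyp () x hx fun h => hn (.inr h)).1
    obtain ⟨i, hi⟩ := hc (g z)
    exact ⟨i, g, z, ζ, a1, hi, a3, a4, loc i g z ζ a1 hi a3 a4 fun h => hn (.inl h)⟩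

theorem exd_of (h0 : GH.StRes0) (h1 : GH.StPrin) (h2 : GH.StComp) (h3 : GH.StFam)
    (h4 : Pj.RAP) (h5 : Pj.PRJS) (h6 : Pj.REMG) (hT : THIN) : EXD := by
  intro W X q A F _ hW hX hb
  have := hX.sing.nonempty
  have := hW.sing.nonempty
  have hq : ∀ x, HolMap W X q x := fun x => ⟨hb.cont.continuousAt, hb.holo x⟩
  have hc := F.can
  obtain ⟨V, r, exc, hr, hE⟩ := logres_of h0 h1 h2 h3 W hW (q ⁻¹' A) (hb.an.preimage hq) hb.dense
  have ha := img_of h5 h6 V W r (res_hol hr) (res_prj h4 hr)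
  have ct : Continuous fun y => q (r y) := hb.cont.comp hr.cont
  have ch : ∀ y ∉ V.E, ∀ e : Chart 4 V.W, At e y →
      IsCh X (fun w => q (r (e.symm w))) (e y) := fun y hy e he =>
    cht W X q A _ _ hb (isCh_emb hr.emb (fun k =>
      hy ((iUnion₂_subset fun l _ => subset_iUnion V.G l :) k)) he)
      (by rw [e.left_inv he.2]; exact fun k => hy (hE y k))
  obtain ⟨o, ho⟩ := monK (V := V) (p := fun y => q (r y)) hX hc ct
    (fun y g hg => hr.hol y _ (hb.holo _ g hg)) ch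
  refine exists_div (G := fun l => r '' V.G l) (F.m : ℝ) fun E => ?_
  have fin := fun k S => fin_of (prime_of h0 h1 h2 h3 h4 h5 h6) hW
    (U := fun i => q ⁻¹' F.K.U i) (fun i => (hc.lb.isOpen i).preimage hb.cont)
    (fun x => hc.lb.cover _) (F := fun i g => F.η i fun w => q (g w)) E (k := k) (S := S)
  by_cases hE' : E.1 ⊆ r '' V.E
  · obtain ⟨l, hl⟩ := prime_eq (res_hol hr) ha E.2 hE'
    refine ⟨o l, fun _ => ⟨l, hl⟩, fin _ ((r '' ⋃ l ∈ exc, V.G l) ∪ ⋃ a : {a : Fin V.r // a ≠ l},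
      r '' (V.G l ∩ V.G a.1)) (hr.dim.union (dimLe_iUnion fun a =>
        dim_img (res_hol hr) (Val.U.thin_inter a.2.symm))) fun i g z ζ a1 a2 a3 a4 a5 => ?_⟩
    obtain ⟨y, hy, e⟩ := hl ▸ a4.self_of_nhds.2 a3.2.1
    have he : y ∉ ⋃ l ∈ exc, V.G l := fun h => a5 (.inl ⟨y, h, e⟩)
    have hk : ∀ k, k ≠ l → y ∉ V.G k := fun k b c =>
      a5 (.inr (mem_iUnion.2 ⟨⟨k, b⟩, y, ⟨hy, c⟩, e⟩))
    obtain ⟨ξ, hξ⟩ := V.exEq y
    have hat := PH.at_chartAt (n := 4) y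
    set c := chartAt (Cm 4) y
    have z0 : ξ l y = 0 := (hξ.iff.self_of_nhds l).2 hy
    have t := c.tendsto_symm hat.2
    have hi : q (r y) ∈ F.K.U i := e.symm ▸ a2
    obtain ⟨⟨u, u1, u2, u3⟩, m2⟩ := (ho (i, ⟨c, hat.1⟩) y ⟨hat.2, hi⟩).ord hξ hk hat
    refine ord_can hc a1 (isCh_emb hr.emb he hat) (by simp only [c.left_inv hat.2, e]) a3
      (ζ' := fun w => ξ l (c.symm w)) ⟨hξ.hol l c hat, by simp only [c.left_inv hat.2, z0],
        ((hξ l).2 c hat).2 z0⟩ a4 ?_ ?_ ⟨u, u1, u2, ?_⟩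
    · filter_upwards [t.eventually hξ.iff, t.eventually (hr.emb.isOpen.mem_nhds he)] with w c1 c2
      rw [c1 l, hl]
      exact ⟨fun ⟨y', e3, e4⟩ => hr.inj _ y' c2 e4 ▸ e3, fun e3 => ⟨_, e3, rfl⟩⟩
    · filter_upwards [m2, t.eventually (At.near hat), c.eventually_right_inverse' hat.2,
        t.eventually (ct.continuousAt.eventually ((hc.lb.isOpen i).mem_nhds hi))] with w c1 c2 c3 c4 c5
      have := ch _ (c1 c5) c c2
      rw [c3] at this
      exact ⟨this, c4⟩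
    · filter_upwards [u3, c.eventually_right_inverse' hat.2] with w c1 c2
      simpa only [c2] using c1
  · have hT' : IsAn W univ (r '' V.E) := by
      rw [Lg.E, image_iUnion]
      exact an_iUnion ha
    refine ⟨0, fun h => absurd rfl h, fin _ _ (hT W _ _ hW E.2 hT' hE')
      fun i g z ζ a1 a2 a3 a4 a5 => ?_⟩
    obtain ⟨y, e⟩ := hr.surj (g z)
    have hy : q (g z) ∉ A := fun h =>
      a5 ⟨a4.self_of_nhds.2 a3.2.1, y, hE y (by rwa [mem_preimage, e]), e⟩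
    have := hc.an i _ _ (cht W X q A g z hb a1 hy) a2
    exact ⟨_, this.2, this.1, Eventually.of_forall fun w _ => by simp⟩

end Vale.Agent.P277W73
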